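import Vale.Agent.P299G40.Defs
import Vale.Agent.P280Z.Gp.Defs

/-!
# P280: Fano manifolds, nef tangent bundles and rational homogeneous varieties, algebraically
-/

open MvPolynomial Matrix
open Vale.Agent.P299G40 Vale.Agent.P280Z.Gp
open Vale.Agent.P009.AV (IsZar)

noncomputable section

namespace Vale.Agent.P280A

variable {n N M K : ℕ}

/-- The values of polynomials at the chosen homogeneous coordinates of `z`. -/
def val {ι : Type} (F : ι → MvPolynomial (Fin (N + 1)) ℂ) (z : PN N) : ι → ℂ :=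
  fun a => eval z.rep (F a)

/-- `f` is a morphism on `Z`: near every point it is given by forms of the same degree. -/
def IsMor (Z : Set (PN N)) (f : PN N → PN M) : Prop :=
  ∀ z ∈ Z, ∃ (F : Fin (M + 1) → MvPolynomial (Fin (N + 1)) ℂ) (d : ℕ),
    (∀ a, (F a).IsHomogeneous d) ∧ val F z ≠ 0 ∧
      ∀ y ∈ Z, ∀ h : val F y ≠ 0, f y = Projectivization.mk ℂ (val F y) h

/-- `f` is an isomorphism of `Z` onto `W`. -/
def IsIso (Z : Set (PN N)) (W : Set (PN M)) (f : PN N → PN M) : Prop :=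
  IsMor Z f ∧ Set.MapsTo f Z W ∧ ∃ g, IsMor W g ∧ Set.MapsTo g W Z ∧ Set.InvOn g f Z W

/-- `Z` is a Fano manifold of dimension `n`: for some `m > 0`, sections of `-mK_Z` without common
zero define an isomorphism onto a closed subvariety of a projective space. -/
def IsFano (n : ℕ) (Z : Set (PN N)) : Prop :=
  IsSmoothVariety n Z ∧ ∃ (m M : ℕ) (g : Fin (M + 1) → Fin (N + 1) → (Fin n → Fin (N + 1)) → PN N → ℂ)
    (ψ : PN N → PN M) (W : Set (PN M)), 0 < m ∧ (∀ k, IsRegularSection Z m (g k)) ∧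
    (∀ i J, ∀ z ∈ dom Z i J, ∃ h, ψ z = Projectivization.mk ℂ (fun k => g k i J z) h) ∧
    IsZar W ∧ IsIso Z W ψ

/-- `(z, H)` is a point of `ℙ(T_Z)`, the one-dimensional quotient `T_z Z → tangent Z z / H`. -/
def InPT (n : ℕ) (Z : Set (PN N)) (z : PN N) (H : Submodule ℂ (Fin (N + 1) → ℂ)) : Prop :=
  z ∈ Z ∧ z.rep ∈ H ∧ H ≤ tangent Z z ∧ Module.finrank ℂ H = n

/-- The rational function `h` on the curve `C` has order `m` at `c`: off a finite set it is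
`t ^ m · P / Q` with a local parameter `t = ℓ / x_j` at `c` and forms `P`, `Q` not zero at `c`. -/
def HasOrd (C : Set (PN K)) (c : PN K) (h : PN K → ℂ) (m : ℤ) : Prop :=
  ∃ (ℓ : Fin (K + 1) → ℂ) (j : Fin (K + 1)) (P Q : MvPolynomial (Fin (K + 1)) ℂ) (d : ℕ),
    ℓ ⬝ᵥ c.rep = 0 ∧ (∃ w ∈ tangent C c, ℓ ⬝ᵥ w ≠ 0) ∧ c.rep j ≠ 0 ∧ P.IsHomogeneous d ∧
    Q.IsHomogeneous d ∧ eval c.rep P ≠ 0 ∧ eval c.rep Q ≠ 0 ∧
    {y ∈ C | h y ≠ (ℓ ⬝ᵥ y.rep / y.rep j) ^ m * (eval y.rep P / eval y.rep Q)}.Finite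

/-- `y ↦ (f y, H y)` is a morphism from `C` to `ℙ(T_Z)` near `c`, and the rational section `v` of
the pull back of `O(1)` has order `m` at `c`: `H y` is the kernel of a covector `P(y)` with forms
`P` as coefficients, and the trivialization `w ↦ P(y) w / (y_l ^ d · (f y)_i)` of `O(1)` maps `v` to
a rational function of order `m`. -/
def SecOrd (Z : Set (PN N)) (C : Set (PN K)) (f : PN K → PN N)
    (H : PN K → Submodule ℂ (Fin (N + 1) → ℂ)) (v : PN K → Fin (N + 1) → ℂ) (c : PN K) (m : ℤ) :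
    Prop :=
  ∃ (P : Fin (N + 1) → MvPolynomial (Fin (K + 1)) ℂ) (d : ℕ) (l : Fin (K + 1)) (i : Fin (N + 1))
    (E : Set (PN K)), (∀ j, (P j).IsHomogeneous d) ∧ c.rep l ≠ 0 ∧ (f c).rep i ≠ 0 ∧ E.Finite ∧
    c ∉ E ∧ (∀ y ∈ C \ E, ∀ w ∈ tangent Z (f y), w ∈ H y ↔ val P y ⬝ᵥ w = 0) ∧
    HasOrd C c (fun y => val P y ⬝ᵥ v y / (y.rep l ^ d * (f y).rep i)) m

/-- `T_Z` is nef: `O(1)` has nonnegative degree (sum of the orders of a rational section) on every
smooth projective curve `C` mapped to `ℙ(T_Z)` by a morphism `(f, H)`. -/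
def IsNefTangent (n : ℕ) (Z : Set (PN N)) : Prop :=
  ∀ (K : ℕ) (C : Set (PN K)) (f : PN K → PN N) (H : PN K → Submodule ℂ (Fin (N + 1) → ℂ))
    (v : PN K → Fin (N + 1) → ℂ) (m : PN K →₀ ℤ), IsSmoothVariety 1 C → IsMor C f →
    (∀ c ∈ C, InPT n Z (f c) (H c) ∧ v c ∈ tangent Z (f c) ∧ SecOrd Z C f H v c (m c)) →
    (m.support : Set (PN K)) ⊆ C → 0 ≤ m.sum fun _ k => k

/-- `Z` is rational homogeneous: it is isomorphic to the orbit `G / P` of a point `x` of a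
projective space under a connected semisimple algebraic group `G ⊆ SL`, whose stabiliser `P` is a
parabolic subgroup. -/
def IsRatHom (Z : Set (PN N)) : Prop :=
  ∃ (M : ℕ) (G P : Subgroup (SLn (M + 1))) (x : PN M) (f : PN N → PN M),
    IsSemisimple G ∧ IsParabolic P G ∧ (∀ g, g ∈ P ↔ g ∈ G ∧ ∃ c : ℂ, g.1 *ᵥ x.rep = c • x.rep) ∧
    IsIso Z {y | ∃ g ∈ G, ∃ c : ℂ, y.rep = c • (g.1 *ᵥ x.rep)} f

end Vale.Agent.P280A

end
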