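import Vale.Agent.P280A30.Nef
import Vale.Agent.P299G85.Exi
import Vale.Agent.P299G50.Conn
import Vale.Agent.P280Z.Cv.Six
import Vale.Agent.P280Z.M2.K1.All

/-!
# P280A30: assembly
-/

open scoped Manifold ContDiff
open Vale.Agent.P272.K Vale.Agent.P280Z Vale.Agent.P299G40

namespace Vale.Agent.P280A

theorem fin (map : MAP) (var : VAR) (emb : EMB) (deg : DEG) (mer : MER) (cov : COV) (fano : FANO)
    (iso : ISO) (n N : ℕ) (Z : Set (PN N)) (hn : n ≤ 6) (hF : IsFano n Z)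
    (hN : IsNefTangent n Z) : IsRatHom Z := by
  obtain ⟨X, _, _, _, _, _, Φ, hΦ⟩ := P299G85.exi n N Z hF.1
  have := P299G50.conn n N Z X Φ hF.1.irr hΦ
  exact iso n N Z X Φ hΦ (Cv.six_c1
    (fun _ _ _ _ _ _ _ _ _ _ _ _ _ _ h _ hY => M2.K1.num h hY) (P281Z.Mf.mk X) hn
    (fano n N Z X Φ hF hΦ) (Nef.nef map var emb deg mer cov hF.1 hΦ hN))

end Vale.Agent.P280A
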