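import Vale.Agent.P280A30.Rows
import Vale.Agent.P277Z.Slc.DegA

/-!
# P280A30: algebraic nefness gives analytic nefness
-/

set_option linter.all false

open scoped Manifold ContDiff Topology
open MvPolynomial Matrix Filter
open Vale.Agent.P272.K Vale.Agent.P285.H281.FD Vale.Agent.P300.Final Vale.Agent.P299G40
open Vale.Agent.P280Z (Fano NefT QuoC)
open Vale.Agent.P281Z (Pos)

noncomputable section

namespace Vale.Agent.P280A.Nef

section
variable {S : Type} [TopologicalSpace S] [ChartedSpace (Cm 1) S] {h k : S → ℂ} {p : S} {m m' : ℤ}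

theorem t_ne (p : S) :
    ∀ᶠ x in 𝓝[≠] p, chartAt (Cm 1) p x 0 - chartAt (Cm 1) p p 0 ≠ 0 := by
  filter_upwards [self_mem_nhdsWithin, mem_nhdsWithin_of_mem_nhds (chart_source_mem_nhds (Cm 1) p)]
    with x hx hs e
  refine hx ((chartAt (Cm 1) p).injOn hs (mem_chart_source _ p) (funext fun j => ?_))
  rw [Subsingleton.elim j 0]
  exact sub_eq_zero.1 e

theorem ord_congr (H : OrdAt h p m) (e : ∀ᶠ x in 𝓝[≠] p, k x = h x) : OrdAt k p m := by
  obtain ⟨u, a, b, c⟩ := H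
  exact ⟨u, a, b, by filter_upwards [c, e] with x h1 h2 using h2.trans h1⟩

theorem ord_mul (H : OrdAt h p m) (H' : OrdAt k p m') : OrdAt (fun x => h x * k x) p (m + m') := by
  obtain ⟨u, a, b, c⟩ := H
  obtain ⟨u', a', b', c'⟩ := H'
  refine ⟨fun x => u x * u' x, a.mul a', mul_ne_zero b b', ?_⟩
  filter_upwards [c, c', t_ne p] with x h1 h2 h3
  rw [h1, h2, zpow_add₀ h3]
  ring

theorem ord_inv (H : OrdAt h p m) : OrdAt (fun x => (h x)⁻¹) p (-m) := by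
  obtain ⟨u, a, b, c⟩ := H
  refine ⟨fun x => (u x)⁻¹, a.inv (by rwa [(chartAt (Cm 1) p).left_inv (mem_chart_source _ p)]),
    inv_ne_zero b, ?_⟩
  filter_upwards [c] with x h1
  rw [h1, _root_.zpow_neg, mul_inv]

theorem ord_ne (H : OrdAt h p m) : ∀ᶠ x in 𝓝[≠] p, h x ≠ 0 := by
  obtain ⟨u, a, b, c⟩ := H
  have h0 : ∀ᶠ x in 𝓝 p, u ((chartAt (Cm 1) p).symm (chartAt (Cm 1) p x)) ≠ 0 :=
    ((chartAt (Cm 1) p).continuousAt (mem_chart_source _ p)).eventually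
      (a.continuousAt.eventually_ne
        (by rwa [(chartAt (Cm 1) p).left_inv (mem_chart_source _ p)]))
  filter_upwards [c, t_ne p, mem_nhdsWithin_of_mem_nhds h0,
    mem_nhdsWithin_of_mem_nhds (chart_source_mem_nhds (Cm 1) p)] with x h1 h2 h3 h4
  rw [(chartAt (Cm 1) p).left_inv h4] at h3
  rw [h1]
  exact mul_ne_zero h3 (zpow_ne_zero _ h2)

end

theorem holP_comp {n N : ℕ} {X : Type} [TopologicalSpace X] [ChartedSpace (Cm n) X]
    {S : Type} [TopologicalSpace S] [ChartedSpace (Cm 1) S] [IsManifold 𝓘(ℂ, Cm 1) ω S]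
    {Φ : X → PN N} (hΦ : IsProjectiveImmersion (Cm n) Φ) {f : S → X}
    (hf : ContMDiff 𝓘(ℂ, Cm 1) 𝓘(ℂ, Cm n) ω f) : HolP 1 fun c => Φ (f c) := by
  intro c
  obtain ⟨W, s, hx, ⟨o, d⟩, hs, -⟩ := hΦ (f c)
  refine ⟨fun y => s (f y), fun e he => ?_, ?_⟩
  · have h1 : ContMDiffAt 𝓘(ℂ, Cm 1) 𝓘(ℂ, Fin (N + 1) → ℂ) ω (fun y => s (f y)) (e.symm (e c)) := by
      rw [e.left_inv he.2]
      exact (d.contMDiffAt (o.mem_nhds hx)).comp c (hf c)
    exact (h1.comp (e c) (contMDiffAt_symm_of_mem_maximalAtlas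
      (IsManifold.subset_maximalAtlas he.1) (e.map_source he.2))).contDiffAt.analyticAt
  · filter_upwards [(hf c).continuousAt.eventually (o.mem_nhds hx)] with y hy using hs _ hy

theorem nef (map : MAP) (var : VAR) (emb : EMB) (deg : DEG) (mer : MER) (cov : COV) {n N : ℕ}
    {Z : Set (PN N)} {X : Type} [TopologicalSpace X] [ChartedSpace (Cm n) X]
    [IsManifold 𝓘(ℂ, Cm n) ω X] {Φ : X → PN N} (hZ : IsSmoothVariety n Z)
    (hΦ : IsAnalytification n Z Φ) (hN : IsNefTangent n Z) : NefT n X := by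
  classical
  intro C f L α hc hf hL hq hp
  obtain ⟨K, Θ, inj, imm⟩ := emb C.X _ (P277Z.Slc.isLB_inv hL) hp
  obtain ⟨f', hf', hff⟩ := map 1 K N C.X Θ _ inj imm (holP_comp hΦ.2.1 hf)
  obtain ⟨H, A, h1, h2, h3, h4⟩ := cov n N K Z X Φ C.X Θ f L α hZ hΦ inj imm hf hL hq
  obtain ⟨c₁⟩ : Nonempty C.X := inferInstance
  obtain ⟨P₁, d₁, l₁, i₁, -, -, -, -, -, -, -, k₁⟩ := h4 c₁
  have hv : ∀ c, ∃ w ∈ tangent Z (Φ (f c)),
      (∃ w' ∈ tangent Z (Φ (f c)),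
        val P₁ (Θ c) ⬝ᵥ w' / ((Θ c).rep l₁ ^ d₁ * (Φ (f c)).rep i₁) ≠ 0) →
      val P₁ (Θ c) ⬝ᵥ w / ((Θ c).rep l₁ ^ d₁ * (Φ (f c)).rep i₁) = 1 := fun c => by
    by_cases e : ∃ w' ∈ tangent Z (Φ (f c)),
        val P₁ (Θ c) ⬝ᵥ w' / ((Θ c).rep l₁ ^ d₁ * (Φ (f c)).rep i₁) ≠ 0
    · obtain ⟨w, a, b⟩ := e
      refine ⟨_ • w, Submodule.smul_mem _
        (val P₁ (Θ c) ⬝ᵥ w / ((Θ c).rep l₁ ^ d₁ * (Φ (f c)).rep i₁))⁻¹ a, fun _ => ?_⟩
      rw [dotProduct_smul, smul_eq_mul, mul_div_assoc]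
      exact inv_mul_cancel₀ b
    · exact ⟨0, Submodule.zero_mem _, fun h => absurd h e⟩
  choose v hv1 hv2 using hv
  have hw : ∀ c, ∃ w ∈ tangent Z (Φ (f c)), w ∉ H c := fun c => by
    by_contra e
    push Not at e
    have := Submodule.finrank_mono (show tangent Z (Φ (f c)) ≤ H c from e)
    rw [hZ.smooth _ (h1 c).1, (h1 c).2.2.2] at this
    omega
  choose a ha using hL.cover
  have ho : ∀ p, ∃ m, OrdAt (fun c => A (a p) c (v c)) p m := fun p => by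
    obtain ⟨r, m, o, -, e⟩ := k₁ p (a p) (ha p)
    refine ⟨-m, ord_congr (ord_inv o) ?_⟩
    filter_upwards [e, ord_ne o, mem_nhdsWithin_of_mem_nhds ((hL.isOpen _).mem_nhds (ha p))]
      with c e1 e2 e3
    obtain ⟨w, w1, w2⟩ := hw c
    have := hv2 c ⟨w, w1, by
      rw [e1 w w1]
      exact mul_ne_zero e2 fun h => w2 ((h2 _ c e3 w w1).2 h)⟩
    rw [e1 _ (hv1 c)] at this
    exact (eq_inv_of_mul_eq_one_right this)
  choose m hm using ho
  obtain ⟨fin, neg⟩ := deg C.X L (fun a c => A a c (v c)) m hL hp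
    (fun a b x => h3 a b x (v x)) fun p => ⟨a p, ha p, hm p⟩
  have key := hN K (Set.range Θ) f' (Function.extend Θ H fun _ => ⊥) (Function.extend Θ v 0)
    (Finsupp.embDomain ⟨Θ, inj⟩ (Finsupp.ofSupportFinite m fin)) (var K C.X Θ inj imm) hf' ?_ ?_
  · rw [Finsupp.sum_embDomain] at key
    rw [finsum_eq_sum m fin] at neg
    exact absurd key (not_le.2 neg)
  · rintro _ ⟨c, rfl⟩
    have em : Finsupp.embDomain ⟨Θ, inj⟩ (Finsupp.ofSupportFinite m fin) (Θ c) = m c :=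
      Finsupp.embDomain_apply_self ⟨Θ, inj⟩ _ c
    rw [em, inj.extend_apply, inj.extend_apply, hff]
    refine ⟨h1 c, hv1 c, ?_⟩
    obtain ⟨P, d, l, i, E, a1, a2, a3, a4, a5, a6, k⟩ := h4 c
    have ko : ∀ p, ∃ t, (p = c → t = 0) ∧ OrdAt (fun x => (fun y => val P y ⬝ᵥ Function.extend Θ v 0 y /
        (y.rep l ^ d * (f' y).rep i)) (Θ x)) p (t + m p) := fun p => by
      obtain ⟨r, t, o, t0, e⟩ := k p (a p) (ha p)
      refine ⟨t, t0, ord_congr (ord_mul o (hm p)) ?_⟩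
      filter_upwards [e] with x e1
      rw [inj.extend_apply, hff]
      exact e1 _ (hv1 x)
    refine ⟨P, d, l, i, Θ '' E, a1, a2, by rwa [hff], a4.image _,
      fun ⟨x, hx, e⟩ => a5 (inj e ▸ hx), ?_, ?_⟩
    · rintro _ ⟨⟨x, rfl⟩, hx⟩
      rw [inj.extend_apply, hff]
      exact a6 x fun h => hx ⟨x, h, rfl⟩
    · obtain ⟨t, t0, o⟩ := ko c
      rw [t0 rfl, zero_add] at o
      exact mer K C.X Θ _ inj imm (fun p => (ko p).elim fun t h => ⟨_, h.2⟩) c _ o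
  · intro y hy
    rw [Finsupp.support_embDomain, Finset.coe_map] at hy
    exact Set.image_subset_range _ _ hy

end Vale.Agent.P280A.Nef

end
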