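import Vale.Agent.P280A30.Defs
import Vale.Agent.P280Z.Nf

/-!
# P280A30: the rows
-/

open scoped Manifold ContDiff Topology
open MvPolynomial Matrix Filter
open Vale.Agent.P272.K Vale.Agent.P285.H281.FD Vale.Agent.P300.Final Vale.Agent.P299G40
open Vale.Agent.P280Z (Fano NefT QuoC)
open Vale.Agent.P281Z (Pos)
open Vale.Agent.P009.AV (aff)

noncomputable section

namespace Vale.Agent.P280A

/-- `Ψ` has local holomorphic lifts. -/
def HolP (n : ℕ) {M : ℕ} {X : Type} [TopologicalSpace X] [ChartedSpace (Cm n) X]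
    (Ψ : X → PN M) : Prop :=
  ∀ x, ∃ s : X → Fin (M + 1) → ℂ,
    (∀ e : Chart n X, At e x → AnalyticAt ℂ (fun z => s (e.symm z)) (e x)) ∧
    ∀ᶠ y in 𝓝 x, ∃ h : s y ≠ 0, Ψ y = Projectivization.mk ℂ (s y) h

/-- `h` is meromorphic at `p` of order `m`. -/
def OrdAt {S : Type} [TopologicalSpace S] [ChartedSpace (Cm 1) S] (h : S → ℂ) (p : S) (m : ℤ) :
    Prop :=
  ∃ u : S → ℂ, AnalyticAt ℂ (fun z => u ((chartAt (Cm 1) p).symm z)) (chartAt (Cm 1) p p) ∧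
    u p ≠ 0 ∧ ∀ᶠ x in 𝓝[≠] p, h x = u x * (chartAt (Cm 1) p x 0 - chartAt (Cm 1) p p 0) ^ m

/-- The differential of the affine coordinates in a chart. -/
def dAff {n N : ℕ} {X : Type} [TopologicalSpace X] [ChartedSpace (Cm n) X] (Φ : X → PN N)
    (e : Chart n X) (i : Fin (N + 1)) (x : X) : Cm n →L[ℂ] (Fin (N + 1) → ℂ) :=
  fderiv ℂ (fun z => aff i (Φ (e.symm z))) (e x)

/-- Holomorphic maps to projective spaces are morphisms. -/
def MAP : Prop := ∀ (n N M : ℕ) (X : Type) [TopologicalSpace X] [T2Space X] [CompactSpace X]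
  [ConnectedSpace X] [ChartedSpace (Cm n) X] [IsManifold 𝓘(ℂ, Cm n) ω X] (Φ : X → PN N)
  (Ψ : X → PN M), Function.Injective Φ → IsProjectiveImmersion (Cm n) Φ → HolP n Ψ →
    ∃ f : PN N → PN M, IsMor (Set.range Φ) f ∧ ∀ x, f (Φ x) = Ψ x

/-- An embedded Riemann surface is a smooth projective curve. -/
def VAR : Prop := ∀ (K : ℕ) (S : Type) [TopologicalSpace S] [T2Space S] [CompactSpace S]
  [ConnectedSpace S] [ChartedSpace (Cm 1) S] [IsManifold 𝓘(ℂ, Cm 1) ω S] (Φ : S → PN K),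
  Function.Injective Φ → IsProjectiveImmersion (Cm 1) Φ → IsSmoothVariety 1 (Set.range Φ)

/-- Kodaira's embedding theorem. -/
def EMB : Prop := ∀ (S : Type) [TopologicalSpace S] [T2Space S] [CompactSpace S]
  [ChartedSpace (Cm 1) S] [IsManifold 𝓘(ℂ, Cm 1) ω S] (L : Bd S), IsLB 1 L → Pos 1 L →
    ∃ (K : ℕ) (Φ : S → PN K), Function.Injective Φ ∧ IsProjectiveImmersion (Cm 1) Φ

/-- A meromorphic section of a negative line bundle has more poles than zeros. -/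
def DEG : Prop := ∀ (S : Type) [TopologicalSpace S] [T2Space S] [CompactSpace S]
  [ConnectedSpace S] [ChartedSpace (Cm 1) S] [IsManifold 𝓘(ℂ, Cm 1) ω S] (L : Bd S)
  (s : L.ι → S → ℂ) (m : S → ℤ), IsLB 1 L → Pos 1 (P277.Bd.inv L) →
    (∀ a b x, x ∈ L.U a → x ∈ L.U b → s a x = L.g a b x * s b x) →
    (∀ p, ∃ a, p ∈ L.U a ∧ OrdAt (s a) p (m p)) →
    (Function.support m).Finite ∧ ∑ᶠ p, m p < 0

/-- Meromorphic functions are rational, with the same orders. -/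
def MER : Prop := ∀ (K : ℕ) (S : Type) [TopologicalSpace S] [T2Space S] [CompactSpace S]
  [ConnectedSpace S] [ChartedSpace (Cm 1) S] [IsManifold 𝓘(ℂ, Cm 1) ω S] (Φ : S → PN K)
  (h : PN K → ℂ), Function.Injective Φ → IsProjectiveImmersion (Cm 1) Φ →
    (∀ p, ∃ m, OrdAt (fun x => h (Φ x)) p m) →
    ∀ p m, OrdAt (fun x => h (Φ x)) p m → HasOrd (Set.range Φ) (Φ p) h m

/-- The tangent spaces of the variety and of the manifold. -/
def TAN : Prop := ∀ (n N : ℕ) (Z : Set (PN N)) (X : Type) [TopologicalSpace X]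
  [ChartedSpace (Cm n) X] [IsManifold 𝓘(ℂ, Cm n) ω X] (Φ : X → PN N), IsSmoothVariety n Z →
  IsAnalytification n Z Φ → ∀ (e : Chart n X) (x : X) (i : Fin (N + 1)), At e x →
    (Φ x).rep i ≠ 0 →
    (∀ w, w ∈ tangent Z (Φ x) ↔
      ∃ (κ : ℂ) (ξ : Cm n), w = κ • (Φ x).rep + (Φ x).rep i • dAff Φ e i x ξ) ∧
    (∀ (κ : ℂ) (ξ : Cm n), κ • (Φ x).rep + (Φ x).rep i • dAff Φ e i x ξ = 0 → κ = 0 ∧ ξ = 0) ∧
    ∀ (e' : Chart n X) (i' : Fin (N + 1)), At e' x → (Φ x).rep i' ≠ 0 → ∀ ξ : Cm n, ∃ κ : ℂ,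
      (Φ x).rep i • dAff Φ e i x ξ =
        κ • (Φ x).rep + (Φ x).rep i' • dAff Φ e' i' x (jacM e e' x *ᵥ ξ)

/-- Algebraic frames of a quotient line bundle of `f^* T`. `A a c` is the quotient map in the frame
`a` of `L`, on the representatives of tangent vectors. -/
def COV : Prop := ∀ (n N K : ℕ) (Z : Set (PN N)) (X : Type) [TopologicalSpace X]
  [ChartedSpace (Cm n) X] [IsManifold 𝓘(ℂ, Cm n) ω X] (Φ : X → PN N) (S : Type)
  [TopologicalSpace S] [T2Space S] [CompactSpace S] [ConnectedSpace S] [ChartedSpace (Cm 1) S]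
  [IsManifold 𝓘(ℂ, Cm 1) ω S] (Θ : S → PN K) (f : S → X) (L : Bd S)
  (α : Chart n X → L.ι → S → Cm n), IsSmoothVariety n Z → IsAnalytification n Z Φ →
  Function.Injective Θ → IsProjectiveImmersion (Cm 1) Θ →
  ContMDiff 𝓘(ℂ, Cm 1) 𝓘(ℂ, Cm n) ω f → IsLB 1 L → QuoC n f L α →
  ∃ (H : S → Submodule ℂ (Fin (N + 1) → ℂ)) (A : L.ι → S → (Fin (N + 1) → ℂ) → ℂ),
    (∀ c, InPT n Z (Φ (f c)) (H c)) ∧
    (∀ a c, c ∈ L.U a → ∀ w ∈ tangent Z (Φ (f c)), w ∈ H c ↔ A a c w = 0) ∧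
    (∀ a b c w, c ∈ L.U a → c ∈ L.U b → A a c w = L.g a b c * A b c w) ∧
    ∀ c₀, ∃ (P : Fin (N + 1) → MvPolynomial (Fin (K + 1)) ℂ) (d : ℕ) (l : Fin (K + 1))
      (i : Fin (N + 1)) (E : Set S), (∀ j, (P j).IsHomogeneous d) ∧ (Θ c₀).rep l ≠ 0 ∧
      (Φ (f c₀)).rep i ≠ 0 ∧ E.Finite ∧ c₀ ∉ E ∧
      (∀ c ∉ E, ∀ w ∈ tangent Z (Φ (f c)), w ∈ H c ↔ val P (Θ c) ⬝ᵥ w = 0) ∧
      ∀ p a, p ∈ L.U a → ∃ (r : S → ℂ) (m : ℤ), OrdAt r p m ∧ (p = c₀ → m = 0) ∧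
        ∀ᶠ c in 𝓝[≠] p, ∀ w ∈ tangent Z (Φ (f c)),
          val P (Θ c) ⬝ᵥ w / ((Θ c).rep l ^ d * (Φ (f c)).rep i) = r c * A a c w

/-- An ample anticanonical bundle is positive. -/
def FANO : Prop := ∀ (n N : ℕ) (Z : Set (PN N)) (X : Type) [TopologicalSpace X]
  [ConnectedSpace X] [ChartedSpace (Cm n) X] [IsManifold 𝓘(ℂ, Cm n) ω X] (Φ : X → PN N),
  IsFano n Z → IsAnalytification n Z Φ → Fano n X

/-- The embedding onto the orbit is an isomorphism of varieties. -/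
def ISO : Prop := ∀ (n N : ℕ) (Z : Set (PN N)) (X : Type) [TopologicalSpace X] [T2Space X]
  [CompactSpace X] [ConnectedSpace X] [ChartedSpace (Cm n) X] [IsManifold 𝓘(ℂ, Cm n) ω X]
  (Φ : X → PN N), IsAnalytification n Z Φ → P280Z.Gp.RatHom n X → IsRatHom Z

end Vale.Agent.P280A

end
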